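import Mathlib

/-!
# AKS primality: the correctness core (Agrawal-Kayal-Saxena 2004)

If `n < 2^L`, all prime factors of `n` are `> r`, the order of `n` mod `r` is `> L^2` and
`(X+a)^n = X^n + a` modulo `(n, X^r-1)` for all `a < r`, then `n` is a prime power.
-/

namespace Vale.Agent.H7.AKS

open Polynomial

section core

/-- `m` is introspective for `f` on the `r`-th roots of unity of `F`. -/
def Intro (F : Type*) [Field F] (r m : ℕ) (f : F[X]) : Prop :=
  ∀ x : F, x ^ r = 1 → (f.eval x) ^ m = f.eval (x ^ m)

variable {F : Type*} [Field F]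

lemma Intro.mul_left {r m m' : ℕ} {f : F[X]} (h : Intro F r m f) (h' : Intro F r m' f) :
    Intro F r (m * m') f := by
  intro x hx
  rw [pow_mul, h x hx, h' (x ^ m) (by rw [← pow_mul, mul_comm, pow_mul, hx, one_pow]), ← pow_mul]

lemma Intro.one {r : ℕ} {f : F[X]} : Intro F r 1 f := by
  intro x hx; simp

lemma Intro.pow {r m : ℕ} {f : F[X]} (h : Intro F r m f) (k : ℕ) : Intro F r (m ^ k) f := by
  induction k with
  | zero => simpa using Intro.one
  | succ k ih => rw [pow_succ]; exact ih.mul_left h

lemma Intro.prod {r m : ℕ} {ι : Type*} (s : Finset ι) (f : ι → F[X])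
    (h : ∀ i ∈ s, Intro F r m (f i)) : Intro F r m (∏ i ∈ s, f i) := by
  intro x hx
  rw [eval_prod, eval_prod, ← Finset.prod_pow]
  exact Finset.prod_congr rfl fun i hi => h i hi x hx

/-- the product polynomial attached to a set of shifts -/
noncomputable def fU (F : Type*) [Field F] (U : Finset ℕ) : F[X] := ∏ a ∈ U, (X + C (a : F))

lemma fU_natDegree (U : Finset ℕ) : (fU F U).natDegree = U.card := by
  unfold fU
  rw [natDegree_prod_of_monic _ _ (fun a _ => monic_X_add_C _),
    Finset.sum_congr rfl (fun a _ => natDegree_X_add_C _)]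
  simp

/-- powers with congruent exponents of an `r`-th root of unity agree -/
lemma pow_eq_of_modEq {r m m' : ℕ} {x : F} (hx : x ^ r = 1) (h : (m : ZMod r) = (m' : ZMod r)) :
    x ^ m = x ^ m' := by
  have h1 : m ≡ m' [MOD r] := (ZMod.natCast_eq_natCast_iff m m' r).mp h
  rw [← Nat.div_add_mod m r, ← Nat.div_add_mod m' r, pow_add, pow_add, pow_mul, pow_mul, hx,
    one_pow, one_pow, h1]

/-- Main counting argument in a field `F` of characteristic `p` with a primitive `r`-th root. -/
theorem core {p q r L : ℕ} [hp : Fact p.Prime] [CharP F p] (ζ : F) (hζ : IsPrimitiveRoot ζ r)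
    (hr : 0 < r) (hrp : r < p)
    (hn : p * q < 2 ^ L)
    (hq : ∃ l, l.Prime ∧ l ∣ q ∧ l ≠ p) (hq0 : 0 < q)
    (hord : L ^ 2 < orderOf ((p * q : ℕ) : ZMod r))
    (hI : ∀ a < r, Intro F r (p * q) (X + C (a : F))) : False := by
  classical
  have hL1 : 1 ≤ L := by
    rcases Nat.eq_zero_or_pos L with h | h
    · subst h
      have : 0 < p * q := Nat.mul_pos hp.out.pos hq0
      simp at hn; omega
    · exact h
  have hr2 : 2 ≤ r := by
    by_contra hlt
    have hr1 : r = 1 := by omega
    subst hr1
    have h1 : orderOf ((p * q : ℕ) : ZMod 1) = 1 := by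
      rw [orderOf_eq_one_iff]; exact Subsingleton.elim _ _
    rw [h1] at hord
    have : 1 ≤ L ^ 2 := Nat.one_le_pow _ _ hL1
    omega
  have hpr : Nat.Coprime p r := by
    rw [Nat.Prime.coprime_iff_not_dvd hp.out]
    intro h
    exact absurd (Nat.le_of_dvd hr h) (by omega)
  have : NeZero r := ⟨hr.ne'⟩
  -- introspection of p
  have hIp : ∀ a < r, Intro F r p (X + C (a : F)) := by
    intro a _ x hx
    simp only [eval_add, eval_X, eval_C]
    rw [add_pow_char]
    congr 1
    have h : frobenius F p (a : F) = a := map_natCast _ a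
    rw [frobenius_def] at h
    exact h
  -- introspection of q
  have hIq : ∀ a < r, Intro F r q (X + C (a : F)) := by
    intro a ha x hx
    obtain ⟨y, hy1, hy2⟩ : ∃ y : F, y ^ r = 1 ∧ y ^ p = x := by
      obtain ⟨u, _, hu⟩ := Nat.exists_mul_mod_eq_one_of_coprime hpr (by omega : 1 < r)
      refine ⟨x ^ u, by rw [← pow_mul, mul_comm, pow_mul, hx, one_pow], ?_⟩
      rw [← pow_mul, mul_comm u p, ← Nat.div_add_mod (p * u) r, pow_add, pow_mul, hx, one_pow,
        one_mul, hu, pow_one]
    have h1 := hI a ha y hy1
    have h2 := hIp a ha y hy1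
    simp only [eval_add, eval_X, eval_C] at h1 h2 ⊢
    rw [pow_mul, h2, pow_mul, hy2] at h1
    exact h1
  -- the residues
  set T : Finset (ZMod r) := Finset.univ.filter
    (fun z => ∃ i j : ℕ, ((q ^ i * p ^ j : ℕ) : ZMod r) = z) with hT
  have hTr : T.card ≤ r := by
    calc T.card ≤ (Finset.univ : Finset (ZMod r)).card := Finset.card_filter_le _ _
      _ = r := by rw [Finset.card_univ, ZMod.card]
  have hTL : L ^ 2 < T.card := by
    refine lt_of_lt_of_le hord ?_
    have hsub : (Finset.range (orderOf ((p * q : ℕ) : ZMod r))).image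
        (fun k => ((p * q : ℕ) : ZMod r) ^ k) ⊆ T := by
      intro z hz
      rw [Finset.mem_image] at hz
      obtain ⟨k, _, rfl⟩ := hz
      rw [hT, Finset.mem_filter]
      refine ⟨Finset.mem_univ _, k, k, ?_⟩
      push_cast
      rw [mul_pow, mul_comm]
    calc orderOf ((p * q : ℕ) : ZMod r) = (Finset.range (orderOf ((p * q : ℕ) : ZMod r))).card :=
          (Finset.card_range _).symm
      _ = ((Finset.range (orderOf ((p * q : ℕ) : ZMod r))).image
        (fun k => ((p * q : ℕ) : ZMod r) ^ k)).card := by
          rw [Finset.card_image_of_injOn]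
          intro a ha b hb hab
          exact pow_injOn_Iio_orderOf (by simpa using ha) (by simpa using hb) hab
      _ ≤ T.card := Finset.card_le_card hsub
  set t := T.card with ht
  set s := Nat.sqrt t with hs
  have hsL : L ≤ s := by
    rw [hs, Nat.le_sqrt, ← pow_two]; exact hTL.le
  have hss : s * s ≤ t := Nat.sqrt_le t
  have hAt : s * L < t := by
    rcases Nat.lt_or_ge L s with h | h
    · calc s * L < s * s := Nat.mul_lt_mul_of_pos_left h (by omega)
        _ ≤ t := hss
    · have : s = L := le_antisymm h hsL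
      rw [this, ← pow_two]; exact hTL
  set A := s * L with hA
  have hAr : A < r := lt_of_lt_of_le hAt hTr
  -- pigeonhole
  obtain ⟨m, m', hmm, hmod, hm1, hm2, hmI, hmI'⟩ : ∃ m m' : ℕ, m ≠ m' ∧
      ((m : ZMod r) = (m' : ZMod r)) ∧ m ≤ (p * q) ^ s ∧ m' ≤ (p * q) ^ s ∧
      (∀ a < r, Intro F r m (X + C (a : F))) ∧ (∀ a < r, Intro F r m' (X + C (a : F))) := by
    have hcard : T.card < ((Finset.range (s + 1)) ×ˢ (Finset.range (s + 1))).card := by
      rw [Finset.card_product, Finset.card_range]
      exact Nat.lt_succ_sqrt t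
    obtain ⟨⟨i, j⟩, hij, ⟨i', j'⟩, hij', hne, heq⟩ :=
      Finset.exists_ne_map_eq_of_card_lt_of_maps_to hcard
        (f := fun ij : ℕ × ℕ => ((q ^ ij.1 * p ^ ij.2 : ℕ) : ZMod r)) (by
          intro ij _
          simp only [hT, Finset.coe_filter, Finset.mem_univ, true_and, Set.mem_ofPred_eq]
          exact ⟨ij.1, ij.2, rfl⟩)
    simp only [Finset.mem_product, Finset.mem_range] at hij hij'
    have hbound : ∀ i j : ℕ, i ≤ s → j ≤ s → q ^ i * p ^ j ≤ (p * q) ^ s := by
      intro i j hi hj
      rw [mul_pow, mul_comm (p ^ s)]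
      exact Nat.mul_le_mul (Nat.pow_le_pow_right hq0 hi) (Nat.pow_le_pow_right hp.out.pos hj)
    refine ⟨q ^ i * p ^ j, q ^ i' * p ^ j', ?_, heq, hbound i j (by omega) (by omega),
      hbound i' j' (by omega) (by omega), fun a ha => ((hIq a ha).pow i).mul_left ((hIp a ha).pow j),
      fun a ha => ((hIq a ha).pow i').mul_left ((hIp a ha).pow j')⟩
    intro hEq
    apply hne
    obtain ⟨l, hl, hlq, hlp⟩ := hq
    have hfac : ∀ i j : ℕ, (q ^ i * p ^ j).factorization l = i * q.factorization l := by
      intro i j
      rw [Nat.factorization_mul (pow_ne_zero _ hq0.ne') (pow_ne_zero _ hp.out.ne_zero),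
        Nat.factorization_pow, Nat.factorization_pow]
      simp only [Finsupp.coe_add, Finsupp.coe_smul, Pi.add_apply, Pi.smul_apply, smul_eq_mul]
      have : p.factorization l = 0 := by
        rw [Nat.factorization_eq_zero_iff]
        right; left
        intro hd
        exact hlp ((Nat.prime_dvd_prime_iff_eq hl hp.out).mp hd)
      rw [this]; simp
    have hpos : 0 < q.factorization l := hl.factorization_pos_of_dvd hq0.ne' hlq
    have hii : i = i' := by
      have h1 := hfac i j
      rw [hEq, hfac i' j'] at h1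
      exact (Nat.eq_of_mul_eq_mul_right hpos h1).symm
    subst hii
    have hjj : p ^ j = p ^ j' := Nat.eq_of_mul_eq_mul_left (pow_pos hq0 i) hEq
    have := Nat.pow_right_injective hp.out.two_le hjj
    simp [this]
  -- introspection of fU
  have hfUI : ∀ (k : ℕ), (∀ a < r, Intro F r k (X + C (a : F))) → ∀ U ⊆ Finset.range A,
      Intro F r k (fU F U) := by
    intro k hk U hU
    apply Intro.prod
    intro a ha
    exact hk a (lt_trans (Finset.mem_range.mp (hU ha)) hAr)
  have hζr : ζ ^ r = 1 := hζ.pow_eq_one
  -- injectivity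
  have hinj : Set.InjOn (fun U => (fU F U).eval ζ) ((Finset.range A).powerset : Set (Finset ℕ)) := by
    intro U hU V hV hUV
    rw [Finset.mem_coe, Finset.mem_powerset] at hU hV
    simp only at hUV
    have hpoly : fU F U = fU F V := by
      by_contra hne
      have hsub : fU F U - fU F V ≠ 0 := sub_ne_zero.mpr hne
      have hdeg : (fU F U - fU F V).natDegree < t := by
        refine lt_of_le_of_lt (natDegree_sub_le _ _) ?_
        rw [fU_natDegree, fU_natDegree]
        have h1 := Finset.card_le_card hU
        have h2 := Finset.card_le_card hV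
        rw [Finset.card_range] at h1 h2
        exact lt_of_le_of_lt (max_le h1 h2) hAt
      have hroots : T.card ≤ (fU F U - fU F V).roots.toFinset.card := by
        have hmem : ∀ z ∈ T, ζ ^ z.val ∈ (fU F U - fU F V).roots.toFinset := by
          intro z hz
          rw [hT, Finset.mem_filter] at hz
          obtain ⟨_, i, j, hij⟩ := hz
          have hk : ∀ a < r, Intro F r (q ^ i * p ^ j) (X + C (a : F)) :=
            fun a ha => ((hIq a ha).pow i).mul_left ((hIp a ha).pow j)
          have hzz : ζ ^ z.val = ζ ^ (q ^ i * p ^ j) := by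
            apply pow_eq_of_modEq hζr
            rw [ZMod.natCast_zmod_val, hij]
          rw [Multiset.mem_toFinset, mem_roots hsub, IsRoot.def, eval_sub, sub_eq_zero, hzz,
            ← hfUI _ hk U hU ζ hζr, ← hfUI _ hk V hV ζ hζr, hUV]
        refine Finset.card_le_card_of_injOn (fun z => ζ ^ z.val) hmem ?_
        intro z _ w _ hzw
        simp only at hzw
        exact ZMod.val_injective r (hζ.pow_inj (ZMod.val_lt z) (ZMod.val_lt w) hzw)
      have h3 : (fU F U - fU F V).roots.toFinset.card ≤ (fU F U - fU F V).natDegree :=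
        le_trans (Multiset.toFinset_card_le _) (card_roots' _)
      omega
    -- distinct sets have distinct polynomials
    have hmemiff : ∀ W ⊆ Finset.range A, ∀ a < A, (a ∈ W ↔ (fU F W).eval (-(a : F)) = 0) := by
      intro W hW a ha
      unfold fU
      rw [eval_prod, Finset.prod_eq_zero_iff]
      constructor
      · intro h
        exact ⟨a, h, by simp⟩
      · rintro ⟨b, hb, hb0⟩
        simp only [eval_add, eval_X, eval_C] at hb0
        have hab : (b : F) = (a : F) := by
          linear_combination hb0
        have hbA : b < A := Finset.mem_range.mp (hW hb)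
        have hab' : b ≡ a [MOD p] := (CharP.natCast_eq_natCast F p).mp hab
        have : b = a := Nat.ModEq.eq_of_lt_of_lt hab' (by omega) (by omega)
        exact this ▸ hb
    ext a
    by_cases haA : a < A
    · rw [hmemiff U hU a haA, hmemiff V hV a haA, hpoly]
    · constructor
      · intro h; exact absurd (Finset.mem_range.mp (hU h)) haA
      · intro h; exact absurd (Finset.mem_range.mp (hV h)) haA
  -- upper bound: values are roots of X^m - X^m'
  have hpolyne : (X ^ m - X ^ m' : F[X]) ≠ 0 := by
    rw [sub_ne_zero]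
    intro h
    have := congrArg natDegree h
    rw [natDegree_X_pow, natDegree_X_pow] at this
    exact hmm this
  have hcardle : ((Finset.range A).powerset).card ≤ (X ^ m - X ^ m' : F[X]).roots.toFinset.card := by
    refine Finset.card_le_card_of_injOn (fun U => (fU F U).eval ζ) ?_ hinj
    intro U hU
    rw [Finset.mem_coe, Finset.mem_powerset] at hU
    simp only [Finset.mem_coe]
    rw [Multiset.mem_toFinset, mem_roots hpolyne, IsRoot.def, eval_sub, sub_eq_zero, eval_pow,
      eval_pow, eval_X, hfUI m hmI U hU ζ hζr, hfUI m' hmI' U hU ζ hζr,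
      pow_eq_of_modEq hζr hmod]
  have hdeg2 : (X ^ m - X ^ m' : F[X]).roots.toFinset.card ≤ (p * q) ^ s := by
    refine le_trans (Multiset.toFinset_card_le _) (le_trans (card_roots' _) ?_)
    refine le_trans (natDegree_sub_le _ _) ?_
    rw [natDegree_X_pow, natDegree_X_pow]
    exact max_le hm1 hm2
  rw [Finset.card_powerset, Finset.card_range] at hcardle
  have hlt : (p * q) ^ s < 2 ^ A := by
    rw [hA, mul_comm s L, pow_mul]
    exact Nat.pow_lt_pow_left hn (by omega)
  omega

end core

end Vale.Agent.H7.AKS
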