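import Vale.Agent.H7.AKS.Core

/-!
# AKS primality criterion
-/

namespace Vale.Agent.H7.AKS

open Polynomial

/-- AKS: under the congruences `n` is a prime power. -/
theorem prime_pow_of_congr {n r L : ℕ} (hn : 2 ≤ n) (hL : n < 2 ^ L) (hr : 0 < r)
    (hfac : ∀ p, p.Prime → p ∣ n → r < p) (hord : L ^ 2 < orderOf (n : ZMod r))
    (hcong : ∀ a < r, (X ^ r - 1 : (ZMod n)[X]) ∣
      (X + C (a : ZMod n)) ^ n - (X ^ n + C (a : ZMod n))) :
    ∃ p k, p.Prime ∧ n = p ^ k := by
  set p := n.minFac with hp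
  have hpp : p.Prime := Nat.minFac_prime (by omega)
  have hpn : p ∣ n := Nat.minFac_dvd n
  obtain ⟨q, hq⟩ := hpn
  have hq0 : 0 < q := by
    rcases Nat.eq_zero_or_pos q with h | h
    · subst h; simp at hq; omega
    · exact h
  by_cases hex : ∃ l, l.Prime ∧ l ∣ q ∧ l ≠ p
  · exfalso
    have : Fact p.Prime := ⟨hpp⟩
    have hrp : r < p := hfac p hpp ⟨q, hq⟩
    have hrne : NeZero ((r : ℕ) : AlgebraicClosure (ZMod p)) := by
      constructor
      intro h
      have h1 : p ∣ r := (CharP.cast_eq_zero_iff (AlgebraicClosure (ZMod p)) p r).mp h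
      exact absurd (Nat.le_of_dvd hr h1) (by omega)
    obtain ⟨ζ, hζ⟩ := HasEnoughRootsOfUnity.exists_primitiveRoot (AlgebraicClosure (ZMod p)) r
    refine core (p := p) (q := q) (L := L) ζ hζ hr hrp (by rw [← hq]; exact hL) hex hq0
      (by rw [← hq]; exact hord) ?_
    intro a ha x hx
    have hdvd : p ∣ n := ⟨q, hq⟩
    let φ : ZMod n →+* AlgebraicClosure (ZMod p) :=
      (algebraMap (ZMod p) (AlgebraicClosure (ZMod p))).comp (ZMod.castHom hdvd (ZMod p))
    obtain ⟨g, hg⟩ := hcong a ha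
    have h1 := congrArg (fun f => eval₂ φ x f) hg
    simp only [eval₂_sub, eval₂_mul, eval₂_add, eval₂_pow, eval₂_X, eval₂_one, hx,
      sub_self, zero_mul, map_natCast, eval₂_natCast] at h1
    simp only [eval_add, eval_X, eval_C]
    rw [← hq]
    exact sub_eq_zero.mp h1
  · push Not at hex
    refine ⟨p, n.primeFactorsList.length, hpp, ?_⟩
    apply Nat.eq_prime_pow_of_unique_prime_dvd (by omega)
    intro d hd hdn
    rw [hq] at hdn
    rcases (Nat.Prime.dvd_mul hd).mp hdn with h | h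
    · exact (Nat.prime_dvd_prime_iff_eq hd hpp).mp h
    · exact hex d hd h

/-- For prime `n` the congruences hold. -/
theorem congr_of_prime {n : ℕ} (hn : n.Prime) (r a : ℕ) :
    (X ^ r - 1 : (ZMod n)[X]) ∣ (X + C (a : ZMod n)) ^ n - (X ^ n + C (a : ZMod n)) := by
  have : Fact n.Prime := ⟨hn⟩
  have h : (X + C (a : ZMod n)) ^ n = X ^ n + C (a : ZMod n) := by
    rw [add_pow_char, ← C_pow, ZMod.pow_card]
  rw [h, sub_self]
  exact dvd_zero _

/-- Chebyshev-type lower bound. -/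
lemma four_pow_le_primes (m : ℕ) (hm : 0 < m) :
    4 ^ m ≤ (2 * m) ^ (((Finset.range (2 * m + 1)).filter Nat.Prime).card + 1) := by
  have h1 := Nat.four_pow_le_two_mul_self_mul_centralBinom m hm
  have h2 : m.centralBinom ≤ (2 * m) ^ (((Finset.range (2 * m + 1)).filter Nat.Prime).card) := by
    rw [← Nat.prod_pow_factorization_centralBinom m]
    calc ∏ p ∈ Finset.range (2 * m + 1), p ^ (m.centralBinom).factorization p
        = ∏ p ∈ (Finset.range (2 * m + 1)).filter Nat.Prime, p ^ (m.centralBinom).factorization p := by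
          rw [Finset.prod_filter_of_ne]
          intro p _ hne
          by_contra hp
          exact hne (by rw [Nat.factorization_eq_zero_of_not_prime _ hp, pow_zero])
      _ ≤ ∏ _p ∈ (Finset.range (2 * m + 1)).filter Nat.Prime, (2 * m) := by
          apply Finset.prod_le_prod'
          intro p _
          exact Nat.pow_factorization_choose_le (by omega)
      _ = _ := by rw [Finset.prod_const]
  calc 4 ^ m ≤ 2 * m * m.centralBinom := h1
    _ ≤ 2 * m * (2 * m) ^ (((Finset.range (2 * m + 1)).filter Nat.Prime).card) :=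
        Nat.mul_le_mul_left _ h2
    _ = _ := by rw [pow_succ, mul_comm]

lemma two_mul_le_two_pow {L : ℕ} (hL : 1 ≤ L) : 2 * L ≤ 2 ^ L := by
  induction L, hL using Nat.le_induction with
  | base => norm_num
  | succ k hk ih => rw [pow_succ]; omega

/-- number of primes up to `(2L)^8` is at least `L^5`. -/
lemma primes_card_ge {L : ℕ} (hL : 1 ≤ L) :
    L ^ 5 ≤ ((Finset.range ((2 * L) ^ 8 + 1)).filter Nat.Prime).card := by
  have h := four_pow_le_primes (128 * L ^ 8) (by positivity)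
  have h2 : 2 * (128 * L ^ 8) = (2 * L) ^ 8 := by ring
  rw [h2] at h
  set P := ((Finset.range ((2 * L) ^ 8 + 1)).filter Nat.Prime).card
  have h3 : (2 * L) ^ 8 ≤ 2 ^ (8 * L) := by
    calc (2 * L) ^ 8 ≤ (2 ^ L) ^ 8 := Nat.pow_le_pow_left (two_mul_le_two_pow hL) 8
      _ = 2 ^ (8 * L) := by rw [← pow_mul, mul_comm]
  have h4 : 2 ^ (256 * L ^ 8) ≤ 2 ^ (8 * L * (P + 1)) := by
    calc 2 ^ (256 * L ^ 8) = 4 ^ (128 * L ^ 8) := by
          rw [show (4 : ℕ) = 2 ^ 2 by norm_num, ← pow_mul]; congr 1; ring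
      _ ≤ ((2 * L) ^ 8) ^ (P + 1) := h
      _ ≤ (2 ^ (8 * L)) ^ (P + 1) := Nat.pow_le_pow_left h3 _
      _ = _ := by rw [← pow_mul]
  have h5 : 256 * L ^ 8 ≤ 8 * L * (P + 1) := (Nat.pow_le_pow_iff_right (by norm_num)).mp h4
  have h6 : 32 * L ^ 7 ≤ P + 1 := by
    have : 8 * L * (32 * L ^ 7) ≤ 8 * L * (P + 1) := by
      calc 8 * L * (32 * L ^ 7) = 256 * L ^ 8 := by ring
        _ ≤ _ := h5
    exact Nat.le_of_mul_le_mul_left this (by omega)
  have h7 : L ^ 5 ≤ L ^ 7 := Nat.pow_le_pow_right hL (by norm_num)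
  have h8 : 1 ≤ L ^ 7 := Nat.one_le_pow _ _ hL
  omega

/-- existence of a good modulus `r`. -/
lemma exists_good_r {n L : ℕ} (hn : 2 ≤ n) (hL : n < 2 ^ L)
    (hfac : ∀ p, p.Prime → p ∣ n → (2 * L) ^ 8 < p) :
    ∃ r, 0 < r ∧ r ≤ (2 * L) ^ 8 ∧ L ^ 2 < orderOf (n : ZMod r) := by
  have hL1 : 1 ≤ L := by
    rcases Nat.eq_zero_or_pos L with h | h
    · subst h; simp at hL; omega
    · exact h
  by_contra hcon
  push Not at hcon
  set S := (Finset.range ((2 * L) ^ 8 + 1)).filter Nat.Prime with hS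
  set Q := ∏ k ∈ Finset.Icc 1 (L ^ 2), (n ^ k - 1) with hQ
  have hQpos : 0 < Q := by
    apply Finset.prod_pos
    intro k hk
    rw [Finset.mem_Icc] at hk
    have : n ^ 1 ≤ n ^ k := Nat.pow_le_pow_right (by omega) hk.1
    rw [pow_one] at this
    omega
  have hdiv : ∀ p ∈ S, p ∣ Q := by
    intro p hp
    rw [hS, Finset.mem_filter, Finset.mem_range] at hp
    have hpP := hp.2
    have : Fact p.Prime := ⟨hpP⟩
    have hord := hcon p hpP.pos (by omega)
    have hunit : ((n : ZMod p)) ≠ 0 := by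
      intro h
      rw [ZMod.natCast_eq_zero_iff] at h
      have := hfac p hpP h
      omega
    have hpos : 0 < orderOf (n : ZMod p) := by
      rw [orderOf_pos_iff, isOfFinOrder_iff_pow_eq_one]
      refine ⟨p - 1, by have := hpP.two_le; omega, ZMod.pow_card_sub_one_eq_one hunit⟩
    have hdvd : p ∣ n ^ (orderOf (n : ZMod p)) - 1 := by
      rw [← ZMod.natCast_eq_zero_iff, Nat.cast_sub (Nat.one_le_pow _ _ (by omega))]
      push_cast
      rw [pow_orderOf_eq_one, sub_self]
    exact hdvd.trans (Finset.dvd_prod_of_mem _ (Finset.mem_Icc.mpr ⟨hpos, hord⟩))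
  have hprod : ∏ p ∈ S, p ∣ Q := by
    apply Finset.prod_primes_dvd
    · intro p hp
      rw [hS, Finset.mem_filter] at hp
      exact hp.2.prime
    · exact hdiv
  have hle : ∏ p ∈ S, p ≤ Q := Nat.le_of_dvd hQpos hprod
  have hlow : 2 ^ (L ^ 5) ≤ ∏ p ∈ S, p := by
    calc 2 ^ (L ^ 5) ≤ 2 ^ S.card := Nat.pow_le_pow_right (by norm_num) (primes_card_ge hL1)
      _ = ∏ _p ∈ S, 2 := by rw [Finset.prod_const]
      _ ≤ ∏ p ∈ S, p := by
          apply Finset.prod_le_prod'
          intro p hp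
          rw [hS, Finset.mem_filter] at hp
          exact hp.2.two_le
  have hup : Q < 2 ^ (L ^ 5) := by
    have h1 : Q ≤ ∏ _k ∈ Finset.Icc 1 (L ^ 2), n ^ (L ^ 2) := by
      apply Finset.prod_le_prod'
      intro k hk
      rw [Finset.mem_Icc] at hk
      exact le_trans (Nat.sub_le _ _) (Nat.pow_le_pow_right (by omega) hk.2)
    rw [Finset.prod_const, Nat.card_Icc, Nat.add_sub_cancel, ← pow_mul] at h1
    have h2 : n ^ (L ^ 2 * L ^ 2) < (2 ^ L) ^ (L ^ 2 * L ^ 2) :=
      Nat.pow_lt_pow_left hL (by positivity)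
    have h3 : (2 ^ L) ^ (L ^ 2 * L ^ 2) = 2 ^ (L ^ 5) := by
      rw [← pow_mul]; congr 1; ring
    omega
  omega

/-- The AKS primality criterion. -/
theorem aks_iff (n L R : ℕ) (hn : 2 ≤ n) (hL : n < 2 ^ L) (hR : (2 * L) ^ 8 ≤ R) :
    n.Prime ↔
      (∀ d, 2 ≤ d → d ≤ R → d < n → ¬ d ∣ n) ∧
      (∀ b k, 2 ≤ k → k < L → b ^ k ≠ n) ∧
      (∀ r a, 1 ≤ r → r ≤ R → a < r → (X ^ r - 1 : (ZMod n)[X]) ∣
        (X + C (a : ZMod n)) ^ n - (X ^ n + C (a : ZMod n))) := by
  constructor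
  · intro hp
    refine ⟨?_, ?_, ?_⟩
    · intro d hd _ hdn hdvd
      rcases (Nat.dvd_prime hp).mp hdvd with h | h <;> omega
    · intro b k hk _ hbk
      rw [← hbk] at hp
      exact absurd hp (Nat.Prime.not_prime_pow (by omega))
    · intro r a _ _ _
      exact congr_of_prime hp r a
  · rintro ⟨h1, h2, h3⟩
    by_cases hnR : n ≤ R
    · by_contra hnp
      have hmf := Nat.minFac_prime (show n ≠ 1 by omega)
      have hlt : n.minFac < n := (Nat.not_prime_iff_minFac_lt (by omega)).mp hnp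
      exact h1 n.minFac hmf.two_le (by omega) hlt (Nat.minFac_dvd n)
    · have hfac : ∀ p, p.Prime → p ∣ n → R < p := by
        intro p hp hpn
        by_contra hle
        exact h1 p hp.two_le (by omega) (by omega) hpn
      obtain ⟨r, hr0, hrR, hrord⟩ := exists_good_r hn hL
        (fun p hp hpn => lt_of_le_of_lt hR (hfac p hp hpn))
      obtain ⟨p, k, hp, hpk⟩ := prime_pow_of_congr hn hL hr0
        (fun p hp hpn => lt_of_le_of_lt (hrR.trans hR) (hfac p hp hpn)) hrord
        (fun a ha => h3 r a hr0 (hrR.trans hR) ha)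
      have hk0 : k ≠ 0 := by
        rintro rfl
        simp at hpk; omega
      by_cases hk1 : k = 1
      · rw [hpk, hk1, pow_one]; exact hp
      · exfalso
        have hkL : k < L := by
          have : 2 ^ k < 2 ^ L := lt_of_le_of_lt (by
            rw [hpk]; exact Nat.pow_le_pow_left hp.two_le k) hL
          exact (Nat.pow_lt_pow_iff_right (by norm_num)).mp this
        exact h2 p k (by omega) hkL hpk.symm

end Vale.Agent.H7.AKS
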