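import Vale.Agent.H7.AKS.Main

/-!
# AKS test with packed polynomials: pure natural number version
-/

namespace Vale.Agent.H7.AKS

open Polynomial Finset

/-- digit `i` of `F` in base `2^K` -/
def dig (K F i : ℕ) : ℕ := F / 2 ^ (K * i) % 2 ^ K

/-- pack `m` digits -/
def pack (K m : ℕ) (f : ℕ → ℕ) : ℕ := ∑ i ∈ range m, f i * 2 ^ (K * i)

lemma pack_lt {K m : ℕ} {f : ℕ → ℕ} (hf : ∀ i < m, f i < 2 ^ K) : pack K m f < 2 ^ (K * m) := by
  induction m with
  | zero => simp [pack]
  | succ m ih =>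
    rw [pack, sum_range_succ]
    have h1 : pack K m f < 2 ^ (K * m) := ih (fun i hi => hf i (by omega))
    have h2 : f m + 1 ≤ 2 ^ K := hf m (by omega)
    have h3 : (f m + 1) * 2 ^ (K * m) ≤ 2 ^ K * 2 ^ (K * m) := Nat.mul_le_mul_right _ h2
    have h4 : 2 ^ (K * (m + 1)) = 2 ^ K * 2 ^ (K * m) := by
      rw [Nat.mul_succ, pow_add, mul_comm]
    rw [h4]
    have h5 : (f m + 1) * 2 ^ (K * m) = f m * 2 ^ (K * m) + 2 ^ (K * m) := by ring
    unfold pack at h1
    omega

lemma dig_pack {K m : ℕ} {f : ℕ → ℕ} (hf : ∀ i < m, f i < 2 ^ K) {i : ℕ} (hi : i < m) :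
    dig K (pack K m f) i = f i := by
  induction m with
  | zero => omega
  | succ m ih =>
    have hsucc : pack K (m + 1) f = pack K m f + f m * 2 ^ (K * m) := by
      rw [pack, sum_range_succ]; rfl
    have hlt : pack K m f < 2 ^ (K * m) := pack_lt (fun i hi => hf i (by omega))
    rcases Nat.lt_or_ge i m with h | h
    · have h1 := ih (fun i hi => hf i (by omega)) h
      rw [hsucc]
      unfold dig at h1 ⊢
      have hexp : 2 ^ (K * m) = 2 ^ (K * i) * (2 ^ K * 2 ^ (K * (m - i - 1))) := by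
        rw [← pow_add, ← pow_add]; congr 1
        have : m = i + 1 + (m - i - 1) := by omega
        conv_lhs => rw [this]
        ring
      rw [hexp, show f m * (2 ^ (K * i) * (2 ^ K * 2 ^ (K * (m - i - 1))))
        = 2 ^ (K * i) * (2 ^ K * (f m * 2 ^ (K * (m - i - 1)))) by ring,
        Nat.add_mul_div_left _ _ (by positivity), Nat.add_mul_mod_self_left]
      exact h1
    · have : i = m := by omega
      subst this
      rw [hsucc]
      unfold dig
      rw [mul_comm (f i), Nat.add_mul_div_left _ _ (by positivity), Nat.div_eq_of_lt hlt, zero_add]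
      exact Nat.mod_eq_of_lt (hf i (by omega))

lemma dig_pack_ge {K m : ℕ} {f : ℕ → ℕ} (hf : ∀ i < m, f i < 2 ^ K) {i : ℕ} (hi : m ≤ i) :
    dig K (pack K m f) i = 0 := by
  unfold dig
  rw [Nat.div_eq_of_lt, Nat.zero_mod]
  exact lt_of_lt_of_le (pack_lt hf) (Nat.pow_le_pow_right (by norm_num) (Nat.mul_le_mul_left _ hi))

/-- coefficient of the product of two sequences supported on `[0,r)` -/
def conv (r : ℕ) (f g : ℕ → ℕ) (k : ℕ) : ℕ :=
  ∑ i ∈ range r, ∑ j ∈ range r, if i + j = k then f i * g j else 0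

lemma pack_mul (K r : ℕ) (f g : ℕ → ℕ) :
    pack K r f * pack K r g = pack K (2 * r) (conv r f g) := by
  unfold pack conv
  rw [sum_mul_sum]
  have : ∀ k ∈ range (2 * r), (∑ i ∈ range r, ∑ j ∈ range r, if i + j = k then f i * g j else 0)
      * 2 ^ (K * k) = ∑ i ∈ range r, ∑ j ∈ range r,
        if i + j = k then f i * g j * 2 ^ (K * (i + j)) else 0 := by
    intro k _
    rw [sum_mul]
    refine sum_congr rfl fun i _ => ?_
    rw [sum_mul]
    refine sum_congr rfl fun j _ => ?_
    split_ifs with h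
    · rw [h]
    · simp
  rw [sum_congr rfl this]
  symm
  rw [sum_comm]
  refine sum_congr rfl fun i hi => ?_
  rw [sum_comm]
  refine sum_congr rfl fun j hj => ?_
  rw [mem_range] at hi hj
  rw [sum_ite_eq, if_pos (by rw [mem_range]; omega), Nat.mul_add, pow_add]
  ring

/-- coefficient bound -/
lemma conv_lt {r n : ℕ} {f g : ℕ → ℕ} (hf : ∀ i < r, f i < n) (hg : ∀ i < r, g i < n) (k : ℕ) :
    conv r f g k ≤ r * r * (n * n) := by
  unfold conv
  calc _ ≤ ∑ i ∈ range r, ∑ j ∈ range r, n * n := by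
        refine sum_le_sum fun i hi => sum_le_sum fun j hj => ?_
        rw [mem_range] at hi hj
        split_ifs
        · exact Nat.mul_le_mul (hf i hi).le (hg j hj).le
        · exact Nat.zero_le _
    _ = _ := by simp [mul_assoc]

/-- one multiplication modulo `(n, X^r - 1)` on packed polynomials -/
def pm (n r K F G : ℕ) : ℕ :=
  pack K r (fun k => (dig K (F * G) k + dig K (F * G) (k + r)) % n)

/-- the class of a sequence in `(ZMod n)[X]` -/
noncomputable def toPoly (n r : ℕ) (f : ℕ → ℕ) : (ZMod n)[X] :=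
  ∑ i ∈ range r, C ((f i : ℕ) : ZMod n) * X ^ i

lemma toPoly_mul (n r : ℕ) (f g : ℕ → ℕ) :
    toPoly n r f * toPoly n r g = toPoly n (2 * r) (conv r f g) := by
  unfold toPoly conv
  rw [sum_mul_sum]
  have : ∀ k ∈ range (2 * r),
      C (((∑ i ∈ range r, ∑ j ∈ range r, if i + j = k then f i * g j else 0 : ℕ)) : ZMod n)
      * X ^ k = ∑ i ∈ range r, ∑ j ∈ range r,
        if i + j = k then C ((f i : ℕ) : ZMod n) * C ((g j : ℕ) : ZMod n) * X ^ (i + j) else 0 := by
    intro k _
    push_cast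
    rw [map_sum, sum_mul]
    refine sum_congr rfl fun i _ => ?_
    rw [map_sum, sum_mul]
    refine sum_congr rfl fun j _ => ?_
    split_ifs with h
    · rw [h, C_mul]
    · simp
  rw [sum_congr rfl this]
  symm
  rw [sum_comm]
  refine sum_congr rfl fun i hi => ?_
  rw [sum_comm]
  refine sum_congr rfl fun j hj => ?_
  rw [mem_range] at hi hj
  rw [sum_ite_eq, if_pos (by rw [mem_range]; omega), pow_add]
  ring

lemma fold_dvd (n r : ℕ) (c : ℕ → ℕ) :
    (X ^ r - 1 : (ZMod n)[X]) ∣ toPoly n (2 * r) c - toPoly n r (fun k => (c k + c (k + r)) % n) := by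
  have h1 : toPoly n r (fun k => (c k + c (k + r)) % n)
      = ∑ k ∈ range r, (C ((c k : ℕ) : ZMod n) * X ^ k + C ((c (k + r) : ℕ) : ZMod n) * X ^ k) := by
    unfold toPoly
    refine sum_congr rfl fun k _ => ?_
    rw [ZMod.natCast_mod, ← add_mul, ← C_add]
    push_cast
    rfl
  have h2 : toPoly n (2 * r) c = ∑ k ∈ range r, (C ((c k : ℕ) : ZMod n) * X ^ k
      + C ((c (k + r) : ℕ) : ZMod n) * X ^ (k + r)) := by
    unfold toPoly
    rw [two_mul, sum_range_add, sum_add_distrib]
    congr 1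
    exact sum_congr rfl fun k _ => by rw [add_comm r k]
  rw [h1, h2, ← sum_sub_distrib]
  apply dvd_sum
  intro k _
  refine ⟨C ((c (k + r) : ℕ) : ZMod n) * X ^ k, ?_⟩
  rw [pow_add]
  ring

end Vale.Agent.H7.AKS
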