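import Vale.Agent.H7.AKS.Pack

/-!
# AKS test: pure natural number version, specification
-/

namespace Vale.Agent.H7.AKS

open Polynomial Finset

/-- `F` is the packed form of a polynomial congruent to `P` modulo `X^r - 1` -/
def Rep (n r K F : ℕ) (P : (ZMod n)[X]) : Prop :=
  ∃ f : ℕ → ℕ, (∀ i < r, f i < n) ∧ F = pack K r f ∧ (X ^ r - 1 : (ZMod n)[X]) ∣ toPoly n r f - P

lemma Rep.mul {n r K F G : ℕ} {P Q : (ZMod n)[X]} (hK : r * r * (n * n) < 2 ^ K)
    (hr : 1 ≤ r) (hn : 1 ≤ n)
    (hF : Rep n r K F P) (hG : Rep n r K G Q) : Rep n r K (pm n r K F G) (P * Q) := by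
  obtain ⟨f, hf, rfl, hfP⟩ := hF
  obtain ⟨g, hg, rfl, hgQ⟩ := hG
  have hc : ∀ k < 2 * r, conv r f g k < 2 ^ K := fun k _ => lt_of_le_of_lt (conv_lt hf hg k) hK
  refine ⟨fun k => (conv r f g k + conv r f g (k + r)) % n, fun i _ => Nat.mod_lt _ hn, ?_, ?_⟩
  · unfold pm
    rw [pack_mul]
    unfold pack
    refine sum_congr rfl fun k hk => ?_
    rw [mem_range] at hk
    have h1 := dig_pack hc (show k < 2 * r by omega)
    have h2 := dig_pack hc (show k + r < 2 * r by omega)
    unfold pack at h1 h2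
    beta_reduce
    rw [h1, h2]
  · have h1 := fold_dvd n r (conv r f g)
    rw [← toPoly_mul] at h1
    have h2 : (X ^ r - 1 : (ZMod n)[X]) ∣ toPoly n r f * toPoly n r g - P * Q := by
      have : toPoly n r f * toPoly n r g - P * Q
        = (toPoly n r f - P) * toPoly n r g + P * (toPoly n r g - Q) := by ring
      rw [this]
      exact dvd_add (hfP.mul_right _) (hgQ.mul_left _)
    have : toPoly n r (fun k => (conv r f g k + conv r f g (k + r)) % n) - P * Q
      = (toPoly n r f * toPoly n r g - P * Q) - (toPoly n r f * toPoly n r g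
        - toPoly n r (fun k => (conv r f g k + conv r f g (k + r)) % n)) := by ring
    rw [this]
    exact dvd_sub h2 h1

lemma Rep.unique {n r K F G : ℕ} {P : (ZMod n)[X]} (hn : 2 ≤ n) (hr : 1 ≤ r)
    (hF : Rep n r K F P) (hG : Rep n r K G P) : F = G := by
  obtain ⟨f, hf, rfl, hfP⟩ := hF
  obtain ⟨g, hg, rfl, hgP⟩ := hG
  have : Fact (1 < n) := ⟨by omega⟩
  have hdvd : (X ^ r - 1 : (ZMod n)[X]) ∣ toPoly n r f - toPoly n r g := by
    have : toPoly n r f - toPoly n r g = (toPoly n r f - P) - (toPoly n r g - P) := by ring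
    rw [this]; exact dvd_sub hfP hgP
  have hmonic : (X ^ r - 1 : (ZMod n)[X]).Monic := by
    have := monic_X_pow_sub_C (1 : ZMod n) (show r ≠ 0 by omega)
    simpa using this
  have hdegX : (X ^ r - 1 : (ZMod n)[X]).degree = r := by
    have := degree_X_pow_sub_C (show 0 < r by omega) (1 : ZMod n)
    simpa using this
  have hdegt : ∀ h : ℕ → ℕ, (toPoly n r h).degree < r := by
    intro h
    unfold toPoly
    refine lt_of_le_of_lt (degree_sum_le _ _) ?_
    rw [Finset.sup_lt_iff (by exact WithBot.bot_lt_coe r)]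
    intro i hi
    rw [mem_range] at hi
    exact lt_of_le_of_lt (degree_C_mul_X_pow_le i _) (by exact_mod_cast hi)
  have hzero : toPoly n r f - toPoly n r g = 0 := by
    by_contra hne
    refine hmonic.not_dvd_of_degree_lt hne ?_ hdvd
    rw [hdegX]
    exact lt_of_le_of_lt (degree_sub_le _ _) (max_lt (hdegt f) (hdegt g))
  have hcoeff : ∀ h : ℕ → ℕ, ∀ i < r, (toPoly n r h).coeff i = ((h i : ℕ) : ZMod n) := by
    intro h i hi
    unfold toPoly
    rw [finsetSum_coeff]
    simp only [coeff_C_mul_X_pow]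
    rw [sum_ite_eq, if_pos (by rwa [mem_range])]
  unfold pack
  refine sum_congr rfl fun i hi => ?_
  rw [mem_range] at hi
  have h1 : ((f i : ℕ) : ZMod n) = ((g i : ℕ) : ZMod n) := by
    rw [← hcoeff f i hi, ← hcoeff g i hi, sub_eq_zero.mp hzero]
  rw [ZMod.natCast_eq_natCast_iff, Nat.ModEq, Nat.mod_eq_of_lt (hf i hi),
    Nat.mod_eq_of_lt (hg i hi)] at h1
  rw [h1]

lemma Rep.dvd_of_eq {n r K F : ℕ} {P Q : (ZMod n)[X]} (hK : n ≤ 2 ^ K)
    (hF : Rep n r K F P) (hG : Rep n r K F Q) : (X ^ r - 1 : (ZMod n)[X]) ∣ P - Q := by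
  obtain ⟨f, hf, hfF, hfP⟩ := hF
  obtain ⟨g, hg, hgF, hgQ⟩ := hG
  have hfg : toPoly n r f = toPoly n r g := by
    unfold toPoly
    refine sum_congr rfl fun i hi => ?_
    rw [mem_range] at hi
    have h1 := dig_pack (K := K) (m := r) (f := f) (fun i hi => lt_of_lt_of_le (hf i hi) hK) hi
    have h2 := dig_pack (K := K) (m := r) (f := g) (fun i hi => lt_of_lt_of_le (hg i hi) hK) hi
    rw [← h1, ← h2, ← hfF, ← hgF]
  have : P - Q = (toPoly n r g - Q) - (toPoly n r f - P) := by rw [hfg]; ring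
  rw [this]
  exact dvd_sub hgQ hfP

lemma pow_eq_of_prime {n : ℕ} (hn : n.Prime) (a : ℕ) :
    (X + C (a : ZMod n)) ^ n = X ^ n + C (a : ZMod n) := by
  have : Fact n.Prime := ⟨hn⟩
  rw [add_pow_char, ← C_pow, ZMod.pow_card]

/-- loop state of the power computation: (result, base, exponent) -/
def pwStep (n r K : ℕ) (s : ℕ × ℕ × ℕ) : ℕ × ℕ × ℕ :=
  (if s.2.2 % 2 = 1 then pm n r K s.1 s.2.1 else s.1, pm n r K s.2.1 s.2.1, s.2.2 / 2)

/-- packed power `(X+a)^n` -/
def pw (n r K N a : ℕ) : ℕ := ((pwStep n r K)^[N] (1, a + 2 ^ K, n)).1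

lemma Rep.one {n r K : ℕ} (hn : 2 ≤ n) (hr : 1 ≤ r) : Rep n r K 1 1 := by
  refine ⟨fun i => if i = 0 then 1 else 0, ?_, ?_, ?_⟩
  · intro i _; dsimp only; split_ifs <;> omega
  · unfold pack
    rw [sum_eq_single 0]
    · simp
    · intro b _ hb; simp [hb]
    · intro h; exact absurd (mem_range.mpr (by omega)) h
  · have : toPoly n r (fun i => if i = 0 then 1 else 0) = 1 := by
      unfold toPoly
      rw [sum_eq_single 0]
      · simp
      · intro b _ hb; simp [hb]
      · intro h; exact absurd (mem_range.mpr (by omega)) h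
    rw [this, sub_self]; exact dvd_zero _

lemma Rep.target {n r K a m : ℕ} (hn : 2 ≤ n) (ha : a < n) (hm0 : m % r ≠ 0) (hr : 1 ≤ r) :
    Rep n r K (a + 2 ^ (K * (m % r))) (X ^ m + C (a : ZMod n)) := by
  have hmr : m % r < r := Nat.mod_lt _ (by omega)
  refine ⟨fun i => if i = 0 then a else if i = m % r then 1 else 0, ?_, ?_, ?_⟩
  · intro i _; dsimp only; split_ifs <;> omega
  · unfold pack
    rw [sum_eq_add_of_mem 0 (m % r) (mem_range.mpr (by omega)) (mem_range.mpr hmr) (Ne.symm hm0)]
    · simp [hm0]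
    · intro c _ hc; simp [hc.1, hc.2]
  · have h1 : toPoly n r (fun i => if i = 0 then a else if i = m % r then 1 else 0)
        = C (a : ZMod n) + X ^ (m % r) := by
      unfold toPoly
      rw [sum_eq_add_of_mem 0 (m % r) (mem_range.mpr (by omega)) (mem_range.mpr hmr) (Ne.symm hm0)]
      · simp [hm0]
      · intro c _ hc; simp [hc.1, hc.2]
    rw [h1]
    have h2 : (X ^ r - 1 : (ZMod n)[X]) ∣ X ^ m - X ^ (m % r) := by
      conv_rhs => rw [← Nat.div_add_mod m r, pow_add, pow_mul]
      rw [Nat.mul_add_mod, Nat.mod_mod]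
      have : (X ^ r) ^ (m / r) * X ^ (m % r) - X ^ (m % r)
        = ((X ^ r) ^ (m / r) - 1 ^ (m / r) : (ZMod n)[X]) * X ^ (m % r) := by ring
      rw [this]
      exact (sub_dvd_pow_sub_pow _ _ _).mul_right _
    have h3 : C (a : ZMod n) + X ^ (m % r) - (X ^ m + C (a : ZMod n))
      = -(X ^ m - X ^ (m % r)) := by ring
    rw [h3]
    exact (dvd_neg).mpr h2

lemma Rep.base {n r K a : ℕ} (hn : 2 ≤ n) (ha : a < n) (hr : 2 ≤ r) :
    Rep n r K (a + 2 ^ K) (X + C (a : ZMod n)) := by
  have := Rep.target (n := n) (r := r) (K := K) (a := a) (m := 1) hn ha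
    (by rw [Nat.mod_eq_of_lt (by omega)]; omega) (by omega)
  rw [Nat.mod_eq_of_lt (by omega : 1 < r), mul_one, pow_one] at this
  exact this

lemma pw_rep {n r K N a : ℕ} (hn : 2 ≤ n) (ha : a < n) (hr : 2 ≤ r)
    (hK : r * r * (n * n) < 2 ^ K) (hN : n < 2 ^ N) :
    Rep n r K (pw n r K N a) ((X + C (a : ZMod n)) ^ n) := by
  have key : ∀ N : ℕ, ∃ P B : (ZMod n)[X],
      Rep n r K ((pwStep n r K)^[N] (1, a + 2 ^ K, n)).1 P ∧
      Rep n r K ((pwStep n r K)^[N] (1, a + 2 ^ K, n)).2.1 B ∧
      ((pwStep n r K)^[N] (1, a + 2 ^ K, n)).2.2 = n / 2 ^ N ∧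
      P * B ^ (n / 2 ^ N) = (X + C (a : ZMod n)) ^ n := by
    intro N
    induction N with
    | zero =>
      refine ⟨1, X + C (a : ZMod n), Rep.one hn (by omega), Rep.base hn ha hr, ?_, ?_⟩
      · simp
      · simp
    | succ N ih =>
      obtain ⟨P, B, hP, hB, hm, hPB⟩ := ih
      rw [Function.iterate_succ_apply']
      set s := (pwStep n r K)^[N] (1, a + 2 ^ K, n)
      have hdiv : n / 2 ^ (N + 1) = n / 2 ^ N / 2 := by
        rw [pow_succ, Nat.div_div_eq_div_mul]
      have hsplit : n / 2 ^ N = 2 * (n / 2 ^ N / 2) + n / 2 ^ N % 2 := (Nat.div_add_mod _ 2).symm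
      by_cases hodd : s.2.2 % 2 = 1
      · refine ⟨P * B, B * B, ?_, hB.mul hK (by omega) (by omega) hB, ?_, ?_⟩
        · simp only [pwStep, if_pos hodd]
          exact hP.mul hK (by omega) (by omega) hB
        · simp only [pwStep]; rw [hm, hdiv]
        · rw [hm] at hodd
          rw [hdiv, ← hPB]
          conv_rhs => rw [hsplit, hodd]
          ring
      · refine ⟨P, B * B, ?_, hB.mul hK (by omega) (by omega) hB, ?_, ?_⟩
        · simp only [pwStep, if_neg hodd]
          exact hP
        · simp only [pwStep]; rw [hm, hdiv]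
        · rw [hm] at hodd
          have h0 : n / 2 ^ N % 2 = 0 := by omega
          rw [hdiv, ← hPB]
          conv_rhs => rw [hsplit, h0]
          ring
  obtain ⟨P, B, hP, _, _, hPB⟩ := key N
  rw [Nat.div_eq_of_lt hN, pow_zero, mul_one] at hPB
  rw [← hPB]
  exact hP

/-- root extraction by bits: state `b`, step with bit `i` -/
def rtStep (n k : ℕ) (b i : ℕ) : ℕ := if (b + 2 ^ i) ^ k ≤ n then b + 2 ^ i else b

/-- integer `k`-th root of `n < 2^L` -/
def rt (n k L : ℕ) : ℕ := (List.range L).foldl (fun b j => rtStep n k b (L - 1 - j)) 0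

lemma rt_spec {n k L : ℕ} (hk : 1 ≤ k) (hn : n < 2 ^ L) :
    (rt n k L) ^ k ≤ n ∧ n < (rt n k L + 1) ^ k := by
  have key : ∀ m ≤ L, (((List.range m).foldl (fun b j => rtStep n k b (L - 1 - j)) 0) ^ k ≤ n) ∧
      n < (((List.range m).foldl (fun b j => rtStep n k b (L - 1 - j)) 0) + 2 ^ (L - m)) ^ k := by
    intro m
    induction m with
    | zero =>
      intro _
      refine ⟨by simp [Nat.one_le_iff_ne_zero.mp hk], ?_⟩
      simp only [List.range_zero, List.foldl_nil, Nat.sub_zero, zero_add]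
      exact lt_of_lt_of_le hn (Nat.le_self_pow (by omega) _)
    | succ m ih =>
      intro hm
      obtain ⟨h1, h2⟩ := ih (by omega)
      rw [List.range_succ, List.foldl_append, List.foldl_cons, List.foldl_nil]
      set b := (List.range m).foldl (fun b j => rtStep n k b (L - 1 - j)) 0
      have he : L - 1 - m = L - (m + 1) := by omega
      rw [he]
      have hpow : 2 ^ (L - m) = 2 ^ (L - (m + 1)) + 2 ^ (L - (m + 1)) := by
        have : L - m = (L - (m + 1)) + 1 := by omega
        rw [this, pow_succ]; ring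
      unfold rtStep
      split_ifs with h
      · refine ⟨h, ?_⟩
        rw [add_assoc, ← hpow]; exact h2
      · exact ⟨h1, by omega⟩
  have := key L le_rfl
  rw [Nat.sub_self, pow_zero] at this
  exact this

lemma rt_pow_iff {n k L : ℕ} (hk : 1 ≤ k) (hn : n < 2 ^ L) :
    (rt n k L) ^ k = n ↔ ∃ b, b ^ k = n := by
  constructor
  · intro h; exact ⟨_, h⟩
  · rintro ⟨b, rfl⟩
    obtain ⟨h1, h2⟩ := rt_spec hk hn
    have h3 : rt (b ^ k) k L ≤ b := (Nat.pow_le_pow_iff_left (by omega)).mp h1
    have h4 : b < rt (b ^ k) k L + 1 := (Nat.pow_lt_pow_iff_left (by omega)).mp h2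
    have hbr : rt (b ^ k) k L = b := by
      generalize rt (b ^ k) k L = z at h3 h4
      omega
    rw [hbr]

/-- the AKS test, pure version, `R` = bound for the moduli, `L` = bit bound, `K` = digit size -/
def AksTest (n L R K : ℕ) : Prop :=
  2 ≤ n ∧ (∀ d, d < R + 1 → 2 ≤ d → d < n → n % d ≠ 0) ∧
  (n ≤ R ∨ ((∀ k, k < L → 2 ≤ k → (rt n k L) ^ k ≠ n) ∧
    (∀ r, r < R + 1 → 2 ≤ r → ∀ a < r, pw n r K L a = a + 2 ^ (K * (n % r)))))

theorem aksTest_iff {n L R K : ℕ} (hL : n < 2 ^ L) (hR : (2 * L) ^ 8 ≤ R)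
    (hK : R * R * (n * n) < 2 ^ K) : AksTest n L R K ↔ n.Prime := by
  constructor
  · rintro ⟨hn, h1, h2⟩
    have h1' : ∀ d, 2 ≤ d → d ≤ R → d < n → ¬ d ∣ n := by
      intro d hd hdR hdn hdvd
      exact h1 d (by omega) hd hdn (Nat.mod_eq_zero_of_dvd hdvd)
    rcases h2 with h2 | ⟨h2, h3⟩
    · by_contra hnp
      have hmf := Nat.minFac_prime (show n ≠ 1 by omega)
      have hlt : n.minFac < n := (Nat.not_prime_iff_minFac_lt (by omega)).mp hnp
      exact h1' n.minFac hmf.two_le (by omega) hlt (Nat.minFac_dvd n)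
    · by_cases hnR : n ≤ R
      · by_contra hnp
        have hmf := Nat.minFac_prime (show n ≠ 1 by omega)
        have hlt : n.minFac < n := (Nat.not_prime_iff_minFac_lt (by omega)).mp hnp
        exact h1' n.minFac hmf.two_le (by omega) hlt (Nat.minFac_dvd n)
      · rw [aks_iff n L R hn hL hR]
        refine ⟨h1', ?_, ?_⟩
        · intro b k hk hkL hbk
          exact h2 k hkL hk ((rt_pow_iff (by omega) hL).mpr ⟨b, hbk⟩)
        · intro r a hr hrR har
          by_cases hr2 : 2 ≤ r
          · have hKr : r * r * (n * n) < 2 ^ K :=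
              lt_of_le_of_lt (Nat.mul_le_mul_right _ (Nat.mul_le_mul hrR hrR)) hK
            have hmod : n % r ≠ 0 := h1 r (by omega) hr2 (by omega)
            have hnK : n ≤ 2 ^ K := by
              have h5 : n * 1 ≤ r * r * (n * n) := by
                calc n * 1 ≤ n * n := Nat.mul_le_mul_left _ (by omega)
                  _ = 1 * (n * n) := by ring
                  _ ≤ r * r * (n * n) := Nat.mul_le_mul_right _ (by nlinarith)
              omega
            have hp1 := pw_rep (N := L) hn (show a < n by omega) hr2 hKr hL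
            have hp2 := Rep.target (K := K) (m := n) hn (show a < n by omega) hmod hr
            rw [← h3 r (by omega) hr2 a har] at hp2
            exact hp1.dvd_of_eq hnK hp2
          · have : r = 1 := by omega
            subst this
            have : a = 0 := by omega
            subst this
            simp
  · intro hp
    refine ⟨hp.two_le, ?_, ?_⟩
    · intro d _ hd hdn h0
      rcases (Nat.dvd_prime hp).mp (Nat.dvd_of_mod_eq_zero h0) with h | h <;> omega
    · by_cases hnR : n ≤ R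
      · exact Or.inl hnR
      · refine Or.inr ⟨?_, ?_⟩
        · intro k _ hk h
          rw [← h] at hp
          exact absurd hp (Nat.Prime.not_prime_pow (by omega))
        · intro r hrR hr2 a har
          have hKr : r * r * (n * n) < 2 ^ K :=
            lt_of_le_of_lt (Nat.mul_le_mul_right _ (Nat.mul_le_mul (by omega) (by omega))) hK
          have hmod : n % r ≠ 0 := by
            intro h0
            rcases (Nat.dvd_prime hp).mp (Nat.dvd_of_mod_eq_zero h0) with h | h <;> omega
          have hp1 := pw_rep (N := L) hp.two_le (show a < n by omega) hr2 hKr hL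
          have hp2 := Rep.target (K := K) (m := n) hp.two_le (show a < n by omega) hmod (by omega)
          rw [pow_eq_of_prime hp] at hp1
          exact hp1.unique hp.two_le (by omega) hp2

end Vale.Agent.H7.AKS
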